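import Vale.Agent.Lib.P362D.Defs
import Vale.Agent.Lib.P362.Defs
import Vale.Agent.Lib.P362.F.Rand

/-!
P362: the two sets of definitions of the query complexities agree.
-/

namespace P362D

open P362

variable {n : ℕ}

/-- decision tree of a deterministic algorithm -/
def toTree (next : List Bool → Fin n) (out : List Bool → Bool) : ℕ → List Bool → DT (Fin n) Bool
  | 0, h => DT.leaf (out h)
  | t + 1, h => DT.node (next h) (toTree next out t (h ++ [false])) (toTree next out t (h ++ [true]))

theorem eval_toTree (next : List Bool → Fin n) (out : List Bool → Bool) (x : Fin n → Bool) (t : ℕ) :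
    ∀ h, (toTree next out t h).eval x = run next out x t h := by
  induction t with
  | zero => intro h; rfl
  | succ t ih =>
    intro h
    simp only [toTree, DT.eval, run, ih]
    cases hx : x (next h) <;> simp

theorem depth_toTree (next : List Bool → Fin n) (out : List Bool → Bool) (t : ℕ) :
    ∀ h, (toTree next out t h).depth ≤ t := by
  induction t with
  | zero => intro h; exact le_rfl
  | succ t ih =>
    intro h
    simp only [toTree, DT.depth]
    have h1 := ih (h ++ [false])
    have h2 := ih (h ++ [true])
    omega

/-- the subtree reached after the answers `h` -/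
def follow : DT (Fin n) Bool → List Bool → DT (Fin n) Bool
  | DT.leaf r, _ => DT.leaf r
  | DT.node v t0 t1, [] => DT.node v t0 t1
  | DT.node _ t0 t1, b :: h => if b then follow t1 h else follow t0 h

theorem follow_nil (t : DT (Fin n) Bool) : follow t [] = t := by
  cases t <;> rfl

theorem follow_append (t : DT (Fin n) Bool) (h h' : List Bool) :
    follow t (h ++ h') = follow (follow t h) h' := by
  induction t generalizing h with
  | leaf r => rfl
  | node v t0 t1 ih0 ih1 =>
    cases h with
    | nil => rfl
    | cons b h =>
      cases b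
      · simpa [follow] using ih0 h
      · simpa [follow] using ih1 h

/-- next query of a tree -/
def nextOf (i0 : Fin n) (t : DT (Fin n) Bool) (h : List Bool) : Fin n :=
  match follow t h with
  | DT.leaf _ => i0
  | DT.node v _ _ => v

/-- output of a tree -/
def outOf (t : DT (Fin n) Bool) (h : List Bool) : Bool :=
  match follow t h with
  | DT.leaf r => r
  | DT.node _ _ _ => false

theorem run_of_tree (i0 : Fin n) (t : DT (Fin n) Bool) (x : Fin n → Bool) (k : ℕ) :
    ∀ h, (follow t h).depth ≤ k →
      run (nextOf i0 t) (outOf t) x k h = (follow t h).eval x := by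
  induction k with
  | zero =>
    intro h hd
    simp only [run, outOf]
    rcases hf : follow t h with r | ⟨v, t0, t1⟩
    · rfl
    · rw [hf] at hd
      simp [DT.depth] at hd
  | succ k ih =>
    intro h hd
    simp only [run]
    rcases hf : follow t h with r | ⟨v, t0, t1⟩
    · have h1 : ∀ b, follow t (h ++ [b]) = DT.leaf r := by
        intro b
        rw [follow_append, hf]
        rfl
      rw [ih _ (by rw [h1]; exact Nat.zero_le _), h1]
    · have hn : nextOf i0 t h = v := by
        simp only [nextOf, hf]
      have h1 : follow t (h ++ [x v]) = if x v then t1 else t0 := by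
        rw [follow_append, hf]
        cases hx : x v <;> simp [follow, follow_nil]
      rw [hf] at hd
      simp only [DT.depth] at hd
      rw [hn, ih _ (by rw [h1]; split_ifs <;> omega), h1]
      simp only [DT.eval]
      split_ifs <;> rfl

theorem randComputes_iff (hn : 1 ≤ n) (f : (Fin n → Bool) → Bool) (T : ℕ) :
    Randomized f T ↔ RandComputes T f := by
  classical
  constructor
  · rintro ⟨Ω, _, p, next, out, hp, hsum, h⟩
    have hs : ∑ ω, ENNReal.ofReal (p ω) = 1 := by
      rw [← ENNReal.ofReal_sum_of_nonneg fun ω _ => hp ω, hsum, ENNReal.ofReal_one]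
    refine ⟨(PMF.ofFintype (fun ω => ENNReal.ofReal (p ω)) hs).map
      (fun ω => toTree (next ω) (out ω) T []), ?_, fun x => ?_⟩
    · intro t ht
      rw [PMF.mem_support_map_iff] at ht
      obtain ⟨ω, _, rfl⟩ := ht
      exact depth_toTree _ _ _ _
    · rw [PMF.toOuterMeasure_map_apply, PMF.toOuterMeasure_apply_fintype]
      have h1 : (2 / 3 : ENNReal) = ENNReal.ofReal (2 / 3) := by
        rw [ENNReal.ofReal_div_of_pos (by norm_num)]
        norm_num
      rw [h1]
      refine (ENNReal.ofReal_le_ofReal (h x)).trans (le_of_eq ?_)
      rw [ENNReal.ofReal_sum_of_nonneg]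
      · refine Finset.sum_congr rfl fun ω _ => ?_
        by_cases hω : run (next ω) (out ω) x T [] = f x
        · rw [if_pos hω, Set.indicator_of_mem]
          · rfl
          · change (toTree (next ω) (out ω) T []).eval x = f x
            rw [eval_toTree, hω]
        · rw [if_neg hω, Set.indicator_of_notMem, ENNReal.ofReal_zero]
          change ¬ (toTree (next ω) (out ω) T []).eval x = f x
          rw [eval_toTree]
          exact hω
      · intro ω _
        split_ifs
        · exact hp ω
        · exact le_rfl
  · intro h
    obtain ⟨w, hw0, hw1, hwt, hw⟩ := rand_weights h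
    have i0 : Fin n := ⟨0, hn⟩
    have hT : ∀ g : (Fin n → Bool) → Bool, ∃ t : DT (Fin n) Bool,
        w g ≠ 0 → t.depth ≤ T ∧ ∀ x, t.eval x = g x := by
      intro g
      by_cases hg : w g = 0
      · exact ⟨DT.leaf true, fun h => absurd hg h⟩
      · obtain ⟨t, ht⟩ := hwt g hg
        exact ⟨t, fun _ => ht⟩
    choose tr htr using hT
    refine ⟨(Fin n → Bool) → Bool, inferInstance, w, fun g => nextOf i0 (tr g),
      fun g => outOf (tr g), hw0, hw1, fun x => (hw x).trans (le_of_eq ?_)⟩
    refine Finset.sum_congr rfl fun g _ => ?_
    by_cases hg : w g = 0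
    · simp [hg]
    · obtain ⟨hd, he⟩ := htr g hg
      have h1 := run_of_tree i0 (tr g) x T [] (by rw [follow_nil]; exact hd)
      rw [h1, follow_nil, he]

theorem query_mulVec {W : Type} [Fintype W] [DecidableEq W] (x : Fin n → Bool)
    (ψ : Fin n × Bool × W → ℂ) : (query x).mulVec ψ = oracle x ψ := by
  funext r
  simp only [Matrix.mulVec, dotProduct, query, oracle]
  rw [Finset.sum_eq_single (r.1, xor r.2.1 (x r.1), r.2.2)]
  · rw [if_pos, one_mul]
    simp
  · intro s _ hs
    rw [if_neg, zero_mul]
    intro h
    apply hs
    rw [h]
    simp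
  · intro h
    exact absurd (Finset.mem_univ _) h

theorem quantComputes_iff (f : (Fin n → Bool) → Bool) (T : ℕ) :
    Quantum f T ↔ QuantComputes T f := by
  classical
  constructor
  · rintro ⟨W, _, _, U, ψ, out, hU, hψ, h⟩
    let A : QAlg (Fin n) Bool T :=
      { W := W
        init := ψ
        init_norm := hψ
        U := fun t => U t
        unitary := fun t => hU t
        out := out }
    have hst : ∀ (x : Fin n → Bool) (t : ℕ), t ≤ T →
        (circuit (query x) U t).mulVec ψ = A.state x t := by
      intro x t
      induction t with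
      | zero => intro _; rfl
      | succ t ih =>
        intro ht
        have hU' : A.U (Fin.ofNat (T + 1) (t + 1)) = U (t + 1) := by
          change U ((Fin.ofNat (T + 1) (t + 1) : Fin (T + 1)) : ℕ) = U (t + 1)
          rw [Fin.val_ofNat, Nat.mod_eq_of_lt (by omega)]
        simp only [circuit, QAlg.state]
        rw [← ih (by omega), ← query_mulVec, Matrix.mulVec_mulVec, Matrix.mulVec_mulVec, hU']
    refine ⟨A, fun x => (h x).trans (le_of_eq ?_)⟩
    rw [hst x T le_rfl]
    rfl
  · rintro ⟨A, h⟩
    let U : ℕ → Matrix (Fin n × Bool × A.W) (Fin n × Bool × A.W) ℂ :=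
      fun t => A.U (Fin.ofNat (T + 1) t)
    have hst : ∀ (x : Fin n → Bool) (t : ℕ), t ≤ T →
        (circuit (query x) U t).mulVec A.init = A.state x t := by
      intro x t
      induction t with
      | zero => intro _; rfl
      | succ t ih =>
        intro ht
        simp only [circuit, QAlg.state]
        rw [← ih (by omega), ← query_mulVec, Matrix.mulVec_mulVec, Matrix.mulVec_mulVec,
          Matrix.mul_assoc]
    refine ⟨A.W, A.fW, A.dW, U, A.init, A.out, fun t => A.unitary _, A.init_norm,
      fun x => (h x).trans (le_of_eq ?_)⟩
    rw [hst x T le_rfl]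
    rfl

end P362D
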