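import Mathlib

/-!
P362, second set of definitions: randomized and quantum query algorithms for functions on `n` bits.
-/

namespace P362D

/-- A deterministic query algorithm is given by `next` and `out`.  `run next out x t h` is its output
on the input `x` when it has received the answers `h` so far and has `t` queries left: it asks for
the bit number `next h` of `x` and appends the answer to `h`; after the last query it outputs
`out h`. -/
def run {n : ℕ} (next : List Bool → Fin n) (out : List Bool → Bool) (x : Fin n → Bool) :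
    ℕ → List Bool → Bool
  | 0, h => out h
  | t + 1, h => run next out x t (h ++ [x (next h)])

/-- Some randomized algorithm with `T` queries outputs `f x` with probability at least `2/3` on every
input `x`.  Its random seed is `ω` with probability `p ω`; given the seed, it is the deterministic
algorithm given by `next ω` and `out ω`. -/
def Randomized {n : ℕ} (f : (Fin n → Bool) → Bool) (T : ℕ) : Prop :=
  ∃ (Ω : Type) (_ : Fintype Ω) (p : Ω → ℝ) (next : Ω → List Bool → Fin n)
    (out : Ω → List Bool → Bool), (∀ ω, 0 ≤ p ω) ∧ ∑ ω, p ω = 1 ∧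
      ∀ x, 2 / 3 ≤ ∑ ω, if run (next ω) (out ω) x T [] = f x then p ω else 0

/-- The matrix of one query, `|i, b, z⟩ ↦ |i, b ⊕ x i, z⟩`: the column of the basis state `s` has its
entry `1` in the row `(i, b ⊕ x i, z)`, where `s = (i, b, z)`. -/
def query {n : ℕ} {W : Type} [DecidableEq W] (x : Fin n → Bool) :
    Matrix (Fin n × Bool × W) (Fin n × Bool × W) ℂ :=
  fun r s => if r = (s.1, xor s.2.1 (x s.1), s.2.2) then 1 else 0

/-- The product `U T * O * U (T - 1) * O * ⋯ * O * U 0` with `T` factors `O`. -/
noncomputable def circuit {B : Type} [Fintype B] (O : Matrix B B ℂ) (U : ℕ → Matrix B B ℂ) :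
    ℕ → Matrix B B ℂ
  | 0 => U 0
  | t + 1 => U (t + 1) * O * circuit O U t

/-- Some quantum algorithm with `T` queries outputs `f x` with probability at least `2/3` on every
input `x`: it starts in the unit vector `ψ` of the space with basis `|i, b, z⟩`, `z ∈ W`, applies
`U 0, O, U 1, O, ..., O, U T` with fixed unitary matrices `U t` and the query `O`, measures in the
computational basis and outputs `out s` if the result is `s`. -/
def Quantum {n : ℕ} (f : (Fin n → Bool) → Bool) (T : ℕ) : Prop :=
  ∃ (W : Type) (_ : Fintype W) (_ : DecidableEq W)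
    (U : ℕ → Matrix (Fin n × Bool × W) (Fin n × Bool × W) ℂ) (ψ : Fin n × Bool × W → ℂ)
    (out : Fin n × Bool × W → Bool),
    (∀ t, U t ∈ Matrix.unitaryGroup (Fin n × Bool × W) ℂ) ∧ ∑ s, ‖ψ s‖ ^ 2 = 1 ∧
      ∀ x, 2 / 3 ≤ ∑ s, if out s = f x then ‖(circuit (query x) U T).mulVec ψ s‖ ^ 2 else 0

/-- `α` is an admissible exponent: with `R = R(f)` and `Q = Q(f)`, the least numbers of queries of
randomized and quantum algorithms for `f`, one has `R(f) ≤ C (1 + Q(f)) ^ α` for some constant `C`
and all total Boolean functions `f` on `n ≥ 1` bits. -/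
def Exponent (α : ℝ) : Prop :=
  ∃ C : ℝ, ∀ n : ℕ, 1 ≤ n → ∀ (f : (Fin n → Bool) → Bool) (R Q : ℕ),
    IsLeast {T : ℕ | Randomized f T} R → IsLeast {T : ℕ | Quantum f T} Q →
      (R : ℝ) ≤ C * (1 + (Q : ℝ)) ^ α

end P362D
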